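import Vale.Agent.Lib.P062.Full.Table

namespace Vale.Agent.P062.Full

theorem chk30 : checkRange tget 512 15360 = true := by decide +kernel

end Vale.Agent.P062.Full
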