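import Vale.Agent.Lib.P062.Full.Table
import Vale.Agent.Lib.P062.CoreCover

namespace Vale.Agent.P062.Full

/-- The roots: entry number and cell number of the second claim. -/
def roots : List (Nat × Nat) := [(1052, 135), (3971, 118), (5345, 118), (6219, 103), (6890, 103), (7604, 118), (8046, 103), (8609, 103), (9131, 118), (9690, 103), (19480, 150)]

/-- The excluded first replies. -/
def exc : List (Int × Int) := []

theorem roots_ok : rootsOk tget 19481 roots = true := by decide +kernel

theorem cover_ok : coverOk (rootZs tget roots) exc = true := by decide +kernel

end Vale.Agent.P062.Full
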