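import Vale.Agent.Lib.P062.Cover
import Vale.Agent.Lib.P062.Full.Roots
import Vale.Agent.Lib.P062.Full.C0
import Vale.Agent.Lib.P062.Full.C1
import Vale.Agent.Lib.P062.Full.C2
import Vale.Agent.Lib.P062.Full.C3
import Vale.Agent.Lib.P062.Full.C4
import Vale.Agent.Lib.P062.Full.C5
import Vale.Agent.Lib.P062.Full.C6
import Vale.Agent.Lib.P062.Full.C7
import Vale.Agent.Lib.P062.Full.C8
import Vale.Agent.Lib.P062.Full.C9
import Vale.Agent.Lib.P062.Full.C10
import Vale.Agent.Lib.P062.Full.C11
import Vale.Agent.Lib.P062.Full.C12
import Vale.Agent.Lib.P062.Full.C13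
import Vale.Agent.Lib.P062.Full.C14
import Vale.Agent.Lib.P062.Full.C15
import Vale.Agent.Lib.P062.Full.C16
import Vale.Agent.Lib.P062.Full.C17
import Vale.Agent.Lib.P062.Full.C18
import Vale.Agent.Lib.P062.Full.C19
import Vale.Agent.Lib.P062.Full.C20
import Vale.Agent.Lib.P062.Full.C21
import Vale.Agent.Lib.P062.Full.C22
import Vale.Agent.Lib.P062.Full.C23
import Vale.Agent.Lib.P062.Full.C24
import Vale.Agent.Lib.P062.Full.C25
import Vale.Agent.Lib.P062.Full.C26
import Vale.Agent.Lib.P062.Full.C27
import Vale.Agent.Lib.P062.Full.C28
import Vale.Agent.Lib.P062.Full.C29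
import Vale.Agent.Lib.P062.Full.C30
import Vale.Agent.Lib.P062.Full.C31
import Vale.Agent.Lib.P062.Full.C32
import Vale.Agent.Lib.P062.Full.C33
import Vale.Agent.Lib.P062.Full.C34
import Vale.Agent.Lib.P062.Full.C35
import Vale.Agent.Lib.P062.Full.C36
import Vale.Agent.Lib.P062.Full.C37
import Vale.Agent.Lib.P062.Full.C38

namespace Vale.Agent.P062.Full

theorem table_ok : ∀ k < 19481, checkEntry tget k = true := by
  intro k hk
  by_cases h0 : k < 512
  · exact checkRange_spec tget _ _ chk0 k (by omega) (by omega)
  by_cases h1 : k < 1024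
  · exact checkRange_spec tget _ _ chk1 k (by omega) (by omega)
  by_cases h2 : k < 1536
  · exact checkRange_spec tget _ _ chk2 k (by omega) (by omega)
  by_cases h3 : k < 2048
  · exact checkRange_spec tget _ _ chk3 k (by omega) (by omega)
  by_cases h4 : k < 2560
  · exact checkRange_spec tget _ _ chk4 k (by omega) (by omega)
  by_cases h5 : k < 3072
  · exact checkRange_spec tget _ _ chk5 k (by omega) (by omega)
  by_cases h6 : k < 3584
  · exact checkRange_spec tget _ _ chk6 k (by omega) (by omega)
  by_cases h7 : k < 4096
  · exact checkRange_spec tget _ _ chk7 k (by omega) (by omega)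
  by_cases h8 : k < 4608
  · exact checkRange_spec tget _ _ chk8 k (by omega) (by omega)
  by_cases h9 : k < 5120
  · exact checkRange_spec tget _ _ chk9 k (by omega) (by omega)
  by_cases h10 : k < 5632
  · exact checkRange_spec tget _ _ chk10 k (by omega) (by omega)
  by_cases h11 : k < 6144
  · exact checkRange_spec tget _ _ chk11 k (by omega) (by omega)
  by_cases h12 : k < 6656
  · exact checkRange_spec tget _ _ chk12 k (by omega) (by omega)
  by_cases h13 : k < 7168
  · exact checkRange_spec tget _ _ chk13 k (by omega) (by omega)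
  by_cases h14 : k < 7680
  · exact checkRange_spec tget _ _ chk14 k (by omega) (by omega)
  by_cases h15 : k < 8192
  · exact checkRange_spec tget _ _ chk15 k (by omega) (by omega)
  by_cases h16 : k < 8704
  · exact checkRange_spec tget _ _ chk16 k (by omega) (by omega)
  by_cases h17 : k < 9216
  · exact checkRange_spec tget _ _ chk17 k (by omega) (by omega)
  by_cases h18 : k < 9728
  · exact checkRange_spec tget _ _ chk18 k (by omega) (by omega)
  by_cases h19 : k < 10240
  · exact checkRange_spec tget _ _ chk19 k (by omega) (by omega)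
  by_cases h20 : k < 10752
  · exact checkRange_spec tget _ _ chk20 k (by omega) (by omega)
  by_cases h21 : k < 11264
  · exact checkRange_spec tget _ _ chk21 k (by omega) (by omega)
  by_cases h22 : k < 11776
  · exact checkRange_spec tget _ _ chk22 k (by omega) (by omega)
  by_cases h23 : k < 12288
  · exact checkRange_spec tget _ _ chk23 k (by omega) (by omega)
  by_cases h24 : k < 12800
  · exact checkRange_spec tget _ _ chk24 k (by omega) (by omega)
  by_cases h25 : k < 13312
  · exact checkRange_spec tget _ _ chk25 k (by omega) (by omega)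
  by_cases h26 : k < 13824
  · exact checkRange_spec tget _ _ chk26 k (by omega) (by omega)
  by_cases h27 : k < 14336
  · exact checkRange_spec tget _ _ chk27 k (by omega) (by omega)
  by_cases h28 : k < 14848
  · exact checkRange_spec tget _ _ chk28 k (by omega) (by omega)
  by_cases h29 : k < 15360
  · exact checkRange_spec tget _ _ chk29 k (by omega) (by omega)
  by_cases h30 : k < 15872
  · exact checkRange_spec tget _ _ chk30 k (by omega) (by omega)
  by_cases h31 : k < 16384
  · exact checkRange_spec tget _ _ chk31 k (by omega) (by omega)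
  by_cases h32 : k < 16896
  · exact checkRange_spec tget _ _ chk32 k (by omega) (by omega)
  by_cases h33 : k < 17408
  · exact checkRange_spec tget _ _ chk33 k (by omega) (by omega)
  by_cases h34 : k < 17920
  · exact checkRange_spec tget _ _ chk34 k (by omega) (by omega)
  by_cases h35 : k < 18432
  · exact checkRange_spec tget _ _ chk35 k (by omega) (by omega)
  by_cases h36 : k < 18944
  · exact checkRange_spec tget _ _ chk36 k (by omega) (by omega)
  by_cases h37 : k < 19456
  · exact checkRange_spec tget _ _ chk37 k (by omega) (by omega)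
  by_cases h38 : k < 19481
  · exact checkRange_spec tget _ _ chk38 k (by omega) (by omega)
  omega

theorem reply_wins (b : Cell) (hb : b ≠ (0, 0)) (hexc : b ∉ exc) :
    ∃ N, MWins N {(0, 0)} {b} :=
  cover_wins tget 19481 roots exc (table_sound tget 19481 table_ok) roots_ok (by decide) cover_ok b hb hexc

end Vale.Agent.P062.Full
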