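import Vale.Agent.Lib.P062.Full.D0
import Vale.Agent.Lib.P062.Full.D1
import Vale.Agent.Lib.P062.Full.D2
import Vale.Agent.Lib.P062.Full.D3
import Vale.Agent.Lib.P062.Full.D4
import Vale.Agent.Lib.P062.Full.D5
import Vale.Agent.Lib.P062.Full.D6
import Vale.Agent.Lib.P062.Full.D7
import Vale.Agent.Lib.P062.Full.D8
import Vale.Agent.Lib.P062.Full.D9
import Vale.Agent.Lib.P062.Full.D10
import Vale.Agent.Lib.P062.Full.D11
import Vale.Agent.Lib.P062.Full.D12
import Vale.Agent.Lib.P062.Full.D13
import Vale.Agent.Lib.P062.Full.D14
import Vale.Agent.Lib.P062.Full.D15
import Vale.Agent.Lib.P062.Full.D16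
import Vale.Agent.Lib.P062.Full.D17
import Vale.Agent.Lib.P062.Full.D18
import Vale.Agent.Lib.P062.Full.D19
import Vale.Agent.Lib.P062.Full.D20
import Vale.Agent.Lib.P062.Full.D21
import Vale.Agent.Lib.P062.Full.D22
import Vale.Agent.Lib.P062.Full.D23
import Vale.Agent.Lib.P062.Full.D24
import Vale.Agent.Lib.P062.Full.D25
import Vale.Agent.Lib.P062.Full.D26
import Vale.Agent.Lib.P062.Full.D27
import Vale.Agent.Lib.P062.Full.D28
import Vale.Agent.Lib.P062.Full.D29
import Vale.Agent.Lib.P062.Full.D30
import Vale.Agent.Lib.P062.Full.D31
import Vale.Agent.Lib.P062.Full.D32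
import Vale.Agent.Lib.P062.Full.D33
import Vale.Agent.Lib.P062.Full.D34
import Vale.Agent.Lib.P062.Full.D35
import Vale.Agent.Lib.P062.Full.D36
import Vale.Agent.Lib.P062.Full.D37
import Vale.Agent.Lib.P062.Full.D38

/-! The table. -/

namespace Vale.Agent.P062.Full

def u0_0 : Tree :=
  (.node (.node (.node (.node (.node t0 t1) (.node t2 t3)) (.node (.node t4 t5) (.node t6 t7))) (.node (.node (.node t8 t9) (.node t10 t11)) (.node (.node t12 t13) (.node t14 t15)))) (.node (.node (.node (.node t16 t17) (.node t18 t19)) (.node (.node t20 t21) (.node t22 t23))) (.node (.node (.node t24 t25) (.node t26 t27)) (.node (.node t28 t29) (.node t30 t31)))))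

def u0_1 : Tree :=
  (.node (.node (.node (.node (.node t32 t33) (.node t34 t35)) (.node (.node t36 t37) (.node t38 t39))) (.node (.node (.node t40 t41) (.node t42 t43)) (.node (.node t44 t45) (.node t46 t47)))) (.node (.node (.node (.node t48 t49) (.node t50 t51)) (.node (.node t52 t53) (.node t54 t55))) (.node (.node (.node t56 t57) (.node t58 t59)) (.node (.node t60 t61) (.node t62 t63)))))

def u0_2 : Tree :=
  (.node (.node (.node (.node (.node t64 t65) (.node t66 t67)) (.node (.node t68 t69) (.node t70 t71))) (.node (.node (.node t72 t73) (.node t74 t75)) (.node (.node t76 t77) (.node t78 t79)))) (.node (.node (.node (.node t80 t81) (.node t82 t83)) (.node (.node t84 t85) (.node t86 t87))) (.node (.node (.node t88 t89) (.node t90 t91)) (.node (.node t92 t93) (.node t94 t95)))))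

def u0_3 : Tree :=
  (.node (.node (.node (.node (.node t96 t97) (.node t98 t99)) (.node (.node t100 t101) (.node t102 t103))) (.node (.node (.node t104 t105) (.node t106 t107)) (.node (.node t108 t109) (.node t110 t111)))) (.node (.node (.node (.node t112 t113) (.node t114 t115)) (.node (.node t116 t117) (.node t118 t119))) (.node (.node (.node t120 t121) (.node t122 t123)) (.node (.node t124 t125) (.node t126 t127)))))

def u0_4 : Tree :=
  (.node (.node (.node (.node (.node t128 t129) (.node t130 t131)) (.node (.node t132 t133) (.node t134 t135))) (.node (.node (.node t136 t137) (.node t138 t139)) (.node (.node t140 t141) (.node t142 t143)))) (.node (.node (.node (.node t144 t145) (.node t146 t147)) (.node (.node t148 t149) (.node t150 t151))) (.node (.node (.node t152 t153) (.node t154 t155)) (.node (.node t156 t157) (.node t158 t159)))))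

def u0_5 : Tree :=
  (.node (.node (.node (.node (.node t160 t161) (.node t162 t163)) (.node (.node t164 t165) (.node t166 t167))) (.node (.node (.node t168 t169) (.node t170 t171)) (.node (.node t172 t173) (.node t174 t175)))) (.node (.node (.node (.node t176 t177) (.node t178 t179)) (.node (.node t180 t181) (.node t182 t183))) (.node (.node (.node t184 t185) (.node t186 t187)) (.node (.node t188 t189) (.node t190 t191)))))

def u0_6 : Tree :=
  (.node (.node (.node (.node (.node t192 t193) (.node t194 t195)) (.node (.node t196 t197) (.node t198 t199))) (.node (.node (.node t200 t201) (.node t202 t203)) (.node (.node t204 t205) (.node t206 t207)))) (.node (.node (.node (.node t208 t209) (.node t210 t211)) (.node (.node t212 t213) (.node t214 t215))) (.node (.node (.node t216 t217) (.node t218 t219)) (.node (.node t220 t221) (.node t222 t223)))))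

def u0_7 : Tree :=
  (.node (.node (.node (.node (.node t224 t225) (.node t226 t227)) (.node (.node t228 t229) (.node t230 t231))) (.node (.node (.node t232 t233) (.node t234 t235)) (.node (.node t236 t237) (.node t238 t239)))) (.node (.node (.node (.node t240 t241) (.node t242 t243)) (.node (.node t244 t245) (.node t246 t247))) (.node (.node (.node t248 t249) (.node t250 t251)) (.node (.node t252 t253) (.node t254 t255)))))

def u0_8 : Tree :=
  (.node (.node (.node (.node (.node t256 t257) (.node t258 t259)) (.node (.node t260 t261) (.node t262 t263))) (.node (.node (.node t264 t265) (.node t266 t267)) (.node (.node t268 t269) (.node t270 t271)))) (.node (.node (.node (.node t272 t273) (.node t274 t275)) (.node (.node t276 t277) (.node t278 t279))) (.node (.node (.node t280 t281) (.node t282 t283)) (.node (.node t284 t285) (.node t286 t287)))))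

def u0_9 : Tree :=
  (.node (.node (.node (.node (.node t288 t289) (.node t290 t291)) (.node (.node t292 t293) (.node t294 t295))) (.node (.node (.node t296 t297) (.node t298 t299)) (.node (.node t300 t301) (.node t302 t303)))) (.node (.node (.node (.node t304 t305) (.node t306 t307)) (.node (.node t308 t309) (.node t310 t311))) (.node (.node (.node t312 t313) (.node t314 t315)) (.node (.node t316 t317) (.node t318 t319)))))

def u0_10 : Tree :=
  (.node (.node (.node (.node (.node t320 t321) (.node t322 t323)) (.node (.node t324 t325) (.node t326 t327))) (.node (.node (.node t328 t329) (.node t330 t331)) (.node (.node t332 t333) (.node t334 t335)))) (.node (.node (.node (.node t336 t337) (.node t338 t339)) (.node (.node t340 t341) (.node t342 t343))) (.node (.node (.node t344 t345) (.node t346 t347)) (.node (.node t348 t349) (.node t350 t351)))))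

def u0_11 : Tree :=
  (.node (.node (.node (.node (.node t352 t353) (.node t354 t355)) (.node (.node t356 t357) (.node t358 t359))) (.node (.node (.node t360 t361) (.node t362 t363)) (.node (.node t364 t365) (.node t366 t367)))) (.node (.node (.node (.node t368 t369) (.node t370 t371)) (.node (.node t372 t373) (.node t374 t375))) (.node (.node (.node t376 t377) (.node t378 t379)) (.node (.node t380 t381) (.node t382 t383)))))

def u0_12 : Tree :=
  (.node (.node (.node (.node (.node t384 t385) (.node t386 t387)) (.node (.node t388 t389) (.node t390 t391))) (.node (.node (.node t392 t393) (.node t394 t395)) (.node (.node t396 t397) (.node t398 t399)))) (.node (.node (.node (.node t400 t401) (.node t402 t403)) (.node (.node t404 t405) (.node t406 t407))) (.node (.node (.node t408 t409) (.node t410 t411)) (.node (.node t412 t413) (.node t414 t415)))))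

def u0_13 : Tree :=
  (.node (.node (.node (.node (.node t416 t417) (.node t418 t419)) (.node (.node t420 t421) (.node t422 t423))) (.node (.node (.node t424 t425) (.node t426 t427)) (.node (.node t428 t429) (.node t430 t431)))) (.node (.node (.node (.node t432 t433) (.node t434 t435)) (.node (.node t436 t437) (.node t438 t439))) (.node (.node (.node t440 t441) (.node t442 t443)) (.node (.node t444 t445) (.node t446 t447)))))

def u0_14 : Tree :=
  (.node (.node (.node (.node (.node t448 t449) (.node t450 t451)) (.node (.node t452 t453) (.node t454 t455))) (.node (.node (.node t456 t457) (.node t458 t459)) (.node (.node t460 t461) (.node t462 t463)))) (.node (.node (.node (.node t464 t465) (.node t466 t467)) (.node (.node t468 t469) (.node t470 t471))) (.node (.node (.node t472 t473) (.node t474 t475)) (.node (.node t476 t477) (.node t478 t479)))))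

def u0_15 : Tree :=
  (.node (.node (.node (.node (.node t480 t481) (.node t482 t483)) (.node (.node t484 t485) (.node t486 t487))) (.node (.node (.node t488 t489) (.node t490 t491)) (.node (.node t492 t493) (.node t494 t495)))) (.node (.node (.node (.node t496 t497) (.node t498 t499)) (.node (.node t500 t501) (.node t502 t503))) (.node (.node (.node t504 t505) (.node t506 t507)) (.node (.node t508 t509) (.node t510 t511)))))

def u0_16 : Tree :=
  (.node (.node (.node (.node (.node t512 t513) (.node t514 t515)) (.node (.node t516 t517) (.node t518 t519))) (.node (.node (.node t520 t521) (.node t522 t523)) (.node (.node t524 t525) (.node t526 t527)))) (.node (.node (.node (.node t528 t529) (.node t530 t531)) (.node (.node t532 t533) (.node t534 t535))) (.node (.node (.node t536 t537) (.node t538 t539)) (.node (.node t540 t541) (.node t542 t543)))))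

def u0_17 : Tree :=
  (.node (.node (.node (.node (.node t544 t545) (.node t546 t547)) (.node (.node t548 t549) (.node t550 t551))) (.node (.node (.node t552 t553) (.node t554 t555)) (.node (.node t556 t557) (.node t558 t559)))) (.node (.node (.node (.node t560 t561) (.node t562 t563)) (.node (.node t564 t565) (.node t566 t567))) (.node (.node (.node t568 t569) (.node t570 t571)) (.node (.node t572 t573) (.node t574 t575)))))

def u0_18 : Tree :=
  (.node (.node (.node (.node (.node t576 t577) (.node t578 t579)) (.node (.node t580 t581) (.node t582 t583))) (.node (.node (.node t584 t585) (.node t586 t587)) (.node (.node t588 t589) (.node t590 t591)))) (.node (.node (.node (.node t592 t593) (.node t594 t595)) (.node (.node t596 t597) (.node t598 t599))) (.node (.node (.node t600 t601) (.node t602 t603)) (.node (.node t604 t605) (.node t606 t607)))))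

def u0_19 : Tree :=
  (.node (.node (.node (.node (.node t608 (.leaf 0)) (.leaf 0)) (.leaf 0)) (.leaf 0)) (.leaf 0))

/-- The table. -/
def tab : Tree :=
  (.node (.node (.node (.node (.node u0_0 u0_1) (.node u0_2 u0_3)) (.node (.node u0_4 u0_5) (.node u0_6 u0_7))) (.node (.node (.node u0_8 u0_9) (.node u0_10 u0_11)) (.node (.node u0_12 u0_13) (.node u0_14 u0_15)))) (.node (.node (.node (.node u0_16 u0_17) (.node u0_18 u0_19)) (.leaf 0)) (.leaf 0)))

/-- Entry number `k` of the table. -/
def tget (k : Nat) : Nat := tab.get 15 k

end Vale.Agent.P062.Full
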